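import Vale.Agent.P337.StepC
import Vale.Agent.P337.DDefs
import Mathlib.Analysis.Complex.Liouville
import Mathlib.Analysis.Calculus.Deriv.Polynomial

/-!
Analytic bounds: growth bounds for complex polynomials, bounds for the roots of the critical point
system, and for the quantities `EE`.
-/

namespace Vale.Agent.P337

open MvPolynomial

theorem coeff_le_of_circle (q : Polynomial ℂ) {M : ℝ} (h : ∀ z : ℂ, ‖z‖ = 1 → ‖q.eval z‖ ≤ M)
    (j : ℕ) : ‖q.coeff j‖ ≤ M := by
  have h1 : ∀ j, iteratedDeriv j (fun z => q.eval z) =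
      fun z => (Polynomial.derivative^[j] q).eval z := by
    intro j
    induction j with
    | zero => simp
    | succ j ih =>
      rw [iteratedDeriv_succ, ih, Function.iterate_succ_apply']
      funext z
      exact Polynomial.deriv _
  have h2 := Complex.norm_iteratedDeriv_le_of_forall_mem_sphere_norm_le (c := 0) (R := 1) (C := M)
    (f := fun z => q.eval z) j one_pos q.differentiable.diffContOnCl
    (fun z hz => h z (by simpa using hz))
  rw [h1] at h2
  simp only [← Polynomial.coeff_zero_eq_eval_zero, Polynomial.coeff_iterate_derivative, zero_add,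
    Nat.descFactorial_self, nsmul_eq_mul, norm_mul, Complex.norm_natCast, one_pow, div_one] at h2
  exact le_of_mul_le_mul_left h2 (by exact_mod_cast j.factorial_pos)

variable {σ : Type*}

/-- Growth bound `|g(η)| ≤ H ρ ^ m` on polydiscs of radius `ρ ≥ 1`. -/
def Bd (m : ℕ) (H : ℝ) (g : MvPolynomial σ ℂ) : Prop :=
  ∀ ρ : ℝ, 1 ≤ ρ → ∀ η : σ → ℂ, (∀ i, ‖η i‖ ≤ ρ) → ‖eval η g‖ ≤ H * ρ ^ m

namespace Bd

variable {m m' : ℕ} {H H' : ℝ} {g g' : MvPolynomial σ ℂ}

theorem nonneg (h : Bd m H g) : 0 ≤ H := by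
  simpa using (norm_nonneg _).trans (h 1 le_rfl 0 (by simp))

theorem mono (h : Bd m H g) (hm : m ≤ m') (hH : H ≤ H') : Bd m' H' g := fun ρ hρ η hη =>
  (h ρ hρ η hη).trans (mul_le_mul hH (pow_le_pow_right₀ hρ hm) (by positivity)
    (h.nonneg.trans hH))

theorem add (h : Bd m H g) (h' : Bd m H' g') : Bd m (H + H') (g + g') := fun ρ hρ η hη => by
  rw [map_add, add_mul]
  exact (norm_add_le _ _).trans (add_le_add (h ρ hρ η hη) (h' ρ hρ η hη))

theorem sub (h : Bd m H g) (h' : Bd m H' g') : Bd m (H + H') (g - g') := fun ρ hρ η hη => by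
  rw [map_sub, add_mul]
  exact (norm_sub_le _ _).trans (add_le_add (h ρ hρ η hη) (h' ρ hρ η hη))

theorem mul (h : Bd m H g) (h' : Bd m' H' g') : Bd (m + m') (H * H') (g * g') :=
  fun ρ hρ η hη => by
    rw [map_mul, norm_mul, pow_add, mul_mul_mul_comm]
    exact mul_le_mul (h ρ hρ η hη) (h' ρ hρ η hη) (norm_nonneg _)
      (mul_nonneg h.nonneg (by positivity))

theorem C (a : ℂ) : Bd 0 ‖a‖ (C a : MvPolynomial σ ℂ) := fun ρ _ η _ => by simp

theorem one : Bd 0 1 (1 : MvPolynomial σ ℂ) := fun ρ _ η _ => by simp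

theorem C_mul (a : ℂ) (h : Bd m H g) : Bd m (‖a‖ * H) (MvPolynomial.C a * g) := by
  simpa using (Bd.C a).mul h

theorem X_pow (i : σ) (k : ℕ) : Bd k 1 (X i ^ k : MvPolynomial σ ℂ) := fun ρ _ η hη => by
  simpa using pow_le_pow_left₀ (norm_nonneg _) (hη i) k

theorem X (i : σ) : Bd 1 1 (X i : MvPolynomial σ ℂ) := by simpa using Bd.X_pow i 1

theorem pow (h : Bd m H g) (k : ℕ) : Bd (m * k) (H ^ k) (g ^ k) := fun ρ hρ η hη => by
  rw [map_pow, norm_pow, pow_mul, ← mul_pow]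
  exact pow_le_pow_left₀ (norm_nonneg _) (h ρ hρ η hη) k

theorem sum {ι : Type*} (s : Finset ι) {f : ι → MvPolynomial σ ℂ} (h : ∀ i ∈ s, Bd m H (f i)) :
    Bd m (s.card * H) (∑ i ∈ s, f i) := fun ρ hρ η hη => by
  rw [map_sum]
  refine (norm_sum_le _ _).trans ((Finset.sum_le_sum fun i hi => h i hi ρ hρ η hη).trans ?_)
  simp [mul_assoc]

theorem prod {ι : Type*} (s : Finset ι) {f : ι → MvPolynomial σ ℂ} (h : ∀ i ∈ s, Bd m H (f i)) :
    Bd (m * s.card) (H ^ s.card) (∏ i ∈ s, f i) := fun ρ hρ η hη => by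
  rw [map_prod, norm_prod, pow_mul, ← mul_pow, ← Finset.prod_const]
  exact Finset.prod_le_prod (fun _ _ => norm_nonneg _) fun i hi => h i hi ρ hρ η hη

theorem det {ι : Type*} [Fintype ι] [DecidableEq ι] {M : Matrix ι ι (MvPolynomial σ ℂ)}
    (h : ∀ i j, Bd m H (M i j)) :
    Bd (m * Fintype.card ι) ((Fintype.card ι).factorial * H ^ Fintype.card ι) M.det := by
  rw [Matrix.det_apply, ← Fintype.card_perm]
  refine Bd.sum Finset.univ fun π _ => ?_
  have := Bd.prod Finset.univ fun i _ => h (π i) i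
  rcases Int.units_eq_one_or (Equiv.Perm.sign π) with e | e
  · rw [e, one_smul]
    exact this
  · rw [e]
    intro ρ hρ η hη
    simpa using this ρ hρ η hη

end Bd

theorem hasDerivAt_update' [DecidableEq σ] (g : MvPolynomial σ ℂ) (x : σ → ℂ) (i : σ) :
    HasDerivAt (fun s => eval (Function.update x i s) g) (eval x (pderiv i g)) (x i) := by
  induction g using MvPolynomial.induction_on with
  | C a =>
    simp only [eval_C, pderiv_C, map_zero]
    exact hasDerivAt_const (x i) a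
  | add p q hp hq =>
    simp only [map_add]
    exact hp.add hq
  | mul_X p j hp =>
    have h1 : HasDerivAt (fun s => Function.update x i s j) (eval x (pderiv i (X j))) (x i) := by
      by_cases h : j = i
      · subst h
        simp only [Function.update_self, pderiv_X_self, map_one]
        exact hasDerivAt_id (x j)
      · simp only [Function.update_of_ne h, pderiv_X_of_ne h, map_zero]
        exact hasDerivAt_const (x i) (x j)
    have h2 := hp.mul h1
    simp only [Function.update_eq_self] at h2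
    simp only [pderiv_mul, map_add, map_mul, eval_X]
    exact h2

theorem Bd.pderiv {m : ℕ} {H : ℝ} {g : MvPolynomial σ ℂ} (h : Bd (m + 1) H g) (i : σ) :
    Bd m (H * 2 ^ (m + 1)) (pderiv i g) := by
  classical
  intro ρ hρ η hη
  have hd : Differentiable ℂ fun s => eval (Function.update η i s) g := fun z => by
    have := (hasDerivAt_update' g (Function.update η i z) i).differentiableAt
    simpa using this
  have h1 := Complex.norm_deriv_le_of_forall_mem_sphere_norm_le (c := η i) (R := ρ)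
    (C := H * (2 * ρ) ^ (m + 1)) (by linarith) hd.diffContOnCl (fun z hz => by
      refine h (2 * ρ) (by linarith) _ fun j => ?_
      by_cases hj : j = i
      · subst hj
        rw [Function.update_self]
        have h2 : ‖z - η j‖ = ρ := by simpa [dist_eq_norm] using hz
        have h3 := norm_add_le (z - η j) (η j)
        rw [sub_add_cancel] at h3
        linarith [hη j]
      · rw [Function.update_of_ne hj]
        linarith [hη j])
  rw [(hasDerivAt_update' g η i).deriv] at h1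
  refine h1.trans (le_of_eq ?_)
  have : ρ ≠ 0 := by linarith
  field_simp
  ring

variable [Fintype σ] [DecidableEq σ] {e : ℕ} {H : ℝ} {P : MvPolynomial σ ℂ}

omit [Fintype σ] [DecidableEq σ] in
theorem bd_rr (hP : Bd (e + 1) H P) (t : ℂ) (i : σ) :
    Bd e (1 + ‖t‖ * (H * 2 ^ (e + 1))) (rr t P i) :=
  (Bd.one.mono (Nat.zero_le _) le_rfl).sub ((hP.pderiv i).C_mul t)

omit [DecidableEq σ] in
theorem root_bound {r : σ → MvPolynomial σ ℂ} {A : ℝ} (hA : 1 ≤ A) (hr : ∀ i, Bd e A (r i))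
    {η : σ → ℂ} (hη : ∀ i, eval η (sys (e + 1) r i) = 0) (j : σ) : ‖η j‖ ≤ A := by
  obtain ⟨i, -, hi⟩ := Finset.exists_max_image Finset.univ (fun i => ‖η i‖) ⟨j, Finset.mem_univ _⟩
  refine (hi j (Finset.mem_univ _)).trans ?_
  rcases le_total ‖η i‖ 1 with h | h
  · exact h.trans hA
  · have h1 := hr i _ h η fun k => hi k (Finset.mem_univ _)
    have h2 := hη i
    simp only [sys, map_sub, map_pow, eval_X, sub_eq_zero] at h2
    rw [← h2, norm_pow, pow_succ'] at h1
    exact le_of_mul_le_mul_right h1 (by positivity)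

omit [DecidableEq σ] in
theorem bd_hh (hP : Bd e H P) (t : ℂ) :
    Bd (e + 1) (Fintype.card σ * (2 * (e + 1 : ℕ)) + (e + 1 : ℕ) * ‖t‖ * H) (hh e t P) := by
  have h1 : ‖(e : ℂ) + 1‖ = (e + 1 : ℕ) := by
    rw [← Complex.norm_natCast]
    push_cast
    rfl
  refine Bd.add (Bd.sum Finset.univ fun i _ => ?_) ?_
  · refine (((Bd.X_pow i (e + 1)).sub (((Bd.X i).C_mul _).mono (by omega) le_rfl)).add
      ((Bd.C _).mono (Nat.zero_le _) le_rfl)).mono le_rfl ?_
    rw [h1, Complex.norm_natCast]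
    push_cast
    linarith
  · refine (hP.C_mul _).mono (by omega) (le_of_eq ?_)
    rw [norm_mul, h1]

theorem bd_jac {r : σ → MvPolynomial σ ℂ} {A : ℝ} (hr : ∀ i, Bd e A (r i)) :
    Bd (e * Fintype.card σ) ((Fintype.card σ).factorial * ((1 + A) * 2 ^ (e + 1)) ^ Fintype.card σ)
      (jac (e + 1) r) :=
  Bd.det fun i j => ((Bd.X_pow i (e + 1)).sub ((hr i).mono (by omega) le_rfl)).pderiv j

theorem norm_esymm_le (s : Multiset ℂ) {V : ℝ} (hV : 1 ≤ V) (h : ∀ a ∈ s, ‖a‖ ≤ V) {k : ℕ}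
    (hk : k ≤ s.card) : ‖s.esymm k‖ ≤ 2 ^ s.card * V ^ s.card := by
  rw [Multiset.esymm]
  refine (norm_multiset_sum_le _).trans ?_
  have h1 : ∀ x ∈ ((s.powersetCard k).map Multiset.prod).map fun x => ‖x‖, x ≤ V ^ s.card := by
    intro x hx
    obtain ⟨y, hy, rfl⟩ := Multiset.mem_map.1 hx
    obtain ⟨u, hu, rfl⟩ := Multiset.mem_map.1 hy
    rw [Multiset.mem_powersetCard] at hu
    have h2 : ∀ u : Multiset ℂ, (∀ a ∈ u, ‖a‖ ≤ V) → ‖u.prod‖ ≤ V ^ u.card := by
      intro u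
      induction u using Multiset.induction_on with
      | empty => simp
      | cons a u ih =>
        intro hu
        rw [Multiset.prod_cons, norm_mul, Multiset.card_cons, pow_succ']
        exact mul_le_mul (hu a (by simp)) (ih fun b hb => hu b (by simp [hb])) (norm_nonneg _)
          (by linarith)
    exact (h2 u fun a ha => h a (Multiset.mem_of_le hu.1 ha)).trans
      (pow_le_pow_right₀ hV (by omega))
  refine (Multiset.sum_le_card_nsmul _ _ h1).trans ?_
  rw [Multiset.card_map, Multiset.card_map, Multiset.card_powersetCard, nsmul_eq_mul]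
  refine mul_le_mul_of_nonneg_right ?_ (by positivity)
  exact_mod_cast Nat.choose_le_two_pow _ _

theorem norm_EE_le {r : σ → MvPolynomial σ ℂ} (he : 1 ≤ e) (hr : ∀ i, Dg ((e : ℤ) - 1) (r i))
    {N : ℕ} {g : MvPolynomial σ ℂ} (hN : e ^ Fintype.card σ * g.totalDegree ≤ N) {V : ℝ}
    (hV : 1 ≤ V) (hg : ∀ η : σ → ℂ, (∀ i, eval η (sys e r i) = 0) → ‖eval η g‖ ≤ V) {k : ℕ}
    (hk : k ≤ e ^ Fintype.card σ) :
    ‖EE e N r g k‖ ≤ QQ (e ^ Fintype.card σ) *
      (2 ^ (e ^ Fintype.card σ) * V ^ (e ^ Fintype.card σ)) := by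
  obtain ⟨Z, h1, h2, h3, -⟩ := exists_roots_EE he hr
  rw [h3 N g hN k hk, norm_mul, Complex.norm_natCast]
  refine mul_le_mul_of_nonneg_left ?_ (Nat.cast_nonneg _)
  have := norm_esymm_le (Z.map fun η => eval η g) hV (fun a ha => by
    obtain ⟨η, hη, rfl⟩ := Multiset.mem_map.1 ha
    exact hg η ((h1 η).1 hη)) (k := k) (by rwa [Multiset.card_map, h2])
  rwa [Multiset.card_map, h2] at this

theorem abs_coeff_le_of_circle (q : Polynomial ℤ) {M : ℝ}
    (h : ∀ z : ℂ, ‖z‖ = 1 → ‖Polynomial.aeval z q‖ ≤ M) (j : ℕ) : |(q.coeff j : ℝ)| ≤ M := by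
  have := coeff_le_of_circle (q.map (algebraMap ℤ ℂ)) (M := M)
    (fun z hz => by rw [Polynomial.eval_map_algebraMap]; exact h z hz) j
  simpa using this

/-! ### The scale `2 ^ (w ^ k)` -/

/-- `x` is nonnegative and at most `2 ^ (w ^ k)`. -/
def Tw (w k : ℕ) (x : ℝ) : Prop := 0 ≤ x ∧ x ≤ 2 ^ (w ^ k)

namespace Tw

variable {w j k : ℕ} {x y : ℝ}

theorem mono (hw : 2 ≤ w) (h : Tw w j x) (hjk : j ≤ k) : Tw w k x :=
  ⟨h.1, h.2.trans (pow_le_pow_right₀ one_le_two (Nat.pow_le_pow_right (by omega) hjk))⟩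

theorem of_le (h : Tw w k y) (h0 : 0 ≤ x) (hxy : x ≤ y) : Tw w k x := ⟨h0, hxy.trans h.2⟩

theorem two_pow (w k : ℕ) : Tw w k (2 ^ (w ^ k)) := ⟨by positivity, le_rfl⟩

theorem pow {m : ℕ} (h : Tw w k x) (hm : m ≤ w ^ j) : Tw w (k + j) (x ^ m) := by
  refine ⟨pow_nonneg h.1 _, (pow_le_pow_left₀ h.1 h.2 m).trans ?_⟩
  rw [← pow_mul, pow_add]
  exact pow_le_pow_right₀ one_le_two (Nat.mul_le_mul_left _ hm)

theorem pow1 {m : ℕ} (h : Tw w k x) (hm : m ≤ w) : Tw w (k + 1) (x ^ m) :=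
  h.pow (by simpa using hm)

theorem mul (hw : 2 ≤ w) (h : Tw w j x) (h' : Tw w k y) : Tw w (max j k + 1) (x * y) := by
  have h1 := h.mono hw (le_max_left j k)
  have h2 := h'.mono hw (le_max_right j k)
  refine ((Tw.two_pow w (max j k)).pow1 hw).of_le (mul_nonneg h.1 h'.1) ?_
  rw [sq]
  exact mul_le_mul h1.2 h2.2 h'.1 (by positivity)

theorem two (hw : 2 ≤ w) : Tw w 0 2 := ⟨by norm_num, by simp⟩

theorem one : Tw w 0 1 := ⟨by norm_num, by simp⟩

theorem add (hw : 2 ≤ w) (h : Tw w j x) (h' : Tw w k y) : Tw w (max j k + 1) (x + y) := by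
  have h1 := h.mono hw (le_max_left j k)
  have h2 := h'.mono hw (le_max_right j k)
  have h3 := (Tw.two hw).mul hw (Tw.two_pow w (max j k))
  rw [Nat.zero_max] at h3
  exact h3.of_le (add_nonneg h.1 h'.1) (by linarith [h1.2, h2.2])

theorem nat' {m : ℕ} (hm : m ≤ w ^ k) : Tw w k m :=
  ⟨Nat.cast_nonneg _, by exact_mod_cast hm.trans Nat.lt_two_pow_self.le⟩

theorem nat {m : ℕ} (hm : m ≤ w) : Tw w 1 m := Tw.nat' (by simpa using hm)

theorem two_pow' {m : ℕ} (hm : m ≤ w ^ k) : Tw w k (2 ^ m) :=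
  ⟨by positivity, pow_le_pow_right₀ one_le_two hm⟩

theorem two_pow1 {m : ℕ} (hm : m ≤ w) : Tw w 1 (2 ^ m) := Tw.two_pow' (by simpa using hm)

theorem factorial {m : ℕ} (hm : m ≤ w) : Tw w 2 (m.factorial : ℕ) :=
  ((Tw.nat hm).pow1 hm).of_le (Nat.cast_nonneg _) (by exact_mod_cast m.factorial_le_pow)

theorem QQ {D : ℕ} (hD : D + 1 ≤ w) : Tw w 3 (QQ D : ℕ) := by
  have := (Tw.factorial (show D ≤ w by omega)).pow1 hD
  simpa [P337.QQ] using this

end Tw

/-- The bound for `EE` on the scale `2 ^ (w ^ k)`. -/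
theorem tw_EE {r : σ → MvPolynomial σ ℂ} (he : 1 ≤ e) (hr : ∀ i, Dg ((e : ℤ) - 1) (r i))
    {N : ℕ} {g : MvPolynomial σ ℂ} (hN : e ^ Fintype.card σ * g.totalDegree ≤ N) {w l : ℕ}
    (hw : 2 ≤ w) (hD : e ^ Fintype.card σ + 1 ≤ w) (hl : 1 ≤ l)
    (hg : ∀ η : σ → ℂ, (∀ i, eval η (sys e r i) = 0) → Tw w l ‖eval η g‖) {k : ℕ}
    (hk : k ≤ e ^ Fintype.card σ) : Tw w (l + 3) ‖EE e N r g k‖ := by
  have h1 := norm_EE_le he hr hN (V := 2 ^ (w ^ l)) (one_le_pow₀ one_le_two)
    (fun η hη => (hg η hη).2) hk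
  have h2 := (Tw.QQ hD).mul hw ((Tw.two_pow1 (show e ^ Fintype.card σ ≤ w by omega)).mul hw
    ((Tw.two_pow w l).pow1 (show e ^ Fintype.card σ ≤ w by omega)))
  exact (h2.mono hw (by omega)).of_le (norm_nonneg _) h1

end Vale.Agent.P337
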