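import Vale.Agent.P337.Dir.Bd
import Vale.Agent.P337.StepDInt

/-!
The mathematical core with explicit parameters: a nonnegative integer polynomial has a real zero
iff one of the integers `finalInt n s P N c` is negative.
-/

namespace Vale.Agent.P337

open MvPolynomial

/-- The degree of the system. -/
def pe (s : ℕ) : ℕ := 2 * s + 1

/-- The scale. -/
def pw (n s : ℕ) : ℕ := pe s ^ n + n * pe s + pe s + n + 4

section Defs
variable {R : Type*} [CommRing R]

/-- The right hand sides of the system. -/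
noncomputable def pr {n : ℕ} (s : ℕ) (P : MvPolynomial (Fin n) R) :
    Fin n → MvPolynomial (Fin n) R :=
  rr ((2 : R) ^ (pw n s ^ 17)) P

/-- The polynomial which has to be positive at a real root. -/
noncomputable def ph {n : ℕ} (s : ℕ) (P : MvPolynomial (Fin n) R) : MvPolynomial (Fin n) R :=
  C ((2 : R) ^ (pw n s ^ 13)) - hh (pe s) ((2 : R) ^ (pw n s ^ 17)) P

/-- The test polynomial. -/
noncomputable def pG {n : ℕ} (s : ℕ) (P : MvPolynomial (Fin n) R) (N c : ℕ) :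
    MvPolynomial (Fin n) R :=
  GC (pw n s ^ 32) (n * pe s + 1) (pe s ^ n) (4 * (n * (pe s ^ n + 1) + 1)) N c
    ((2 ^ (pw n s ^ 30) : ℕ) : MvPolynomial (Fin n) R)
    (base (pe s) (pw n s ^ 37) (pr s P) (ph s P))

/-- The integer whose sign is tested. -/
noncomputable def finalInt {n : ℕ} (s : ℕ) (P : MvPolynomial (Fin n) R) (N c : ℕ) : R :=
  EE (pe s) (pw n s ^ 37) (pr s P) (pG s P N c) (pe s ^ n)

variable {S : Type*} [CommRing S] (φ : R →+* S) {n : ℕ}

theorem map_XN (i : ℕ) : map φ (XN n R i) = XN n S i := by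
  unfold XN
  split_ifs <;> simp

theorem map_base (e K : ℕ) (r : Fin n → MvPolynomial (Fin n) R) (h0 : MvPolynomial (Fin n) R)
    (j : ℕ) : map φ (base e K r h0 j) = base e K (fun i => map φ (r i)) (map φ h0) j := by
  unfold base
  split_ifs
  · rfl
  · rw [map_vv, map_XN]

theorem map_pr (s : ℕ) (P : MvPolynomial (Fin n) R) :
    (fun i => map φ (pr s P i)) = pr s (map φ P) := by
  funext i
  simp [pr, map_rr, map_ofNat]

theorem map_ph (s : ℕ) (P : MvPolynomial (Fin n) R) : map φ (ph s P) = ph s (map φ P) := by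
  rw [ph, map_sub, map_C, map_hh, ph]
  simp [map_ofNat]

theorem map_pG (s : ℕ) (P : MvPolynomial (Fin n) R) (N c : ℕ) :
    map φ (pG s P N c) = pG s (map φ P) N c := by
  rw [pG, map_GC, pG, map_natCast]
  simp only [map_base, map_pr, map_ph]

theorem map_finalInt (s : ℕ) (P : MvPolynomial (Fin n) R) (N c : ℕ) :
    φ (finalInt s P N c) = finalInt s (map φ P) N c := by
  rw [finalInt, map_EE, map_pr, map_pG, finalInt]

end Defs

theorem pe_pos (s : ℕ) : 1 ≤ pe s := by unfold pe; omega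

theorem odd_pe (s : ℕ) : Odd (pe s) := ⟨s, rfl⟩

theorem pw_facts (n s : ℕ) : 4 ≤ pw n s ∧ pe s ^ n + 2 ≤ pw n s ∧ pe s + 1 ≤ pw n s ∧
    n ≤ pw n s ∧ n * pe s + 1 ≤ pw n s ∧ s ≤ pw n s := by
  have : s ≤ pe s := by unfold pe; omega
  unfold pw
  omega

theorem descFactorial_le_factorial (n k : ℕ) : n.descFactorial k ≤ n.factorial := by
  rcases le_or_gt k n with h | h
  · rw [← Nat.factorial_mul_descFactorial h]
    exact Nat.le_mul_of_pos_left _ (Nat.factorial_pos _)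
  · rw [Nat.descFactorial_of_lt h]
    exact Nat.zero_le _

section Complex

variable {n s : ℕ} {P : MvPolynomial (Fin n) ℂ}

theorem tw_root (hP : Bd (pe s) (2 ^ s) P) {t : ℂ} {τ : ℕ} (hτ : 2 ≤ τ)
    (ht : Tw (pw n s) τ ‖t‖) : ∃ A : ℝ, 1 ≤ A ∧ Tw (pw n s) (τ + 2) A ∧
      (∀ i, Bd (2 * s) A (rr t P i)) ∧
      ∀ η : Fin n → ℂ, (∀ i, eval η (sys (pe s) (rr t P) i) = 0) → ∀ i, ‖η i‖ ≤ A := by
  obtain ⟨h4, hD, he, hn, hm, hs⟩ := pw_facts n s
  have hw : 2 ≤ pw n s := by omega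
  have hA : 1 ≤ 1 + ‖t‖ * (2 ^ s * 2 ^ (2 * s + 1)) := le_add_of_nonneg_right (by positivity)
  refine ⟨_, hA, ?_, bd_rr hP t, fun η hη => root_bound hA (bd_rr hP t) hη⟩
  exact (Tw.one.add hw (ht.mul hw ((Tw.two_pow1 hs).mul hw
    (Tw.two_pow1 (show 2 * s + 1 ≤ pw n s from le_trans (Nat.le_succ _) he))))).mono hw (by omega)

theorem tw_hh (hP : Bd (pe s) (2 ^ s) P) {t : ℂ} {τ : ℕ} (hτ : 2 ≤ τ)
    (ht : Tw (pw n s) τ ‖t‖) {η : Fin n → ℂ} (hη : ∀ i, eval η (sys (pe s) (rr t P) i) = 0) :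
    Tw (pw n s) (τ + 4) ‖eval η (hh (pe s) t P)‖ := by
  obtain ⟨h4, hD, he, hn, hm, hs⟩ := pw_facts n s
  have hw : 2 ≤ pw n s := by omega
  obtain ⟨A, hA, hA', -, hroot⟩ := tw_root hP hτ ht
  have h1 := bd_hh hP t A hA η (hroot η hη)
  rw [Fintype.card_fin] at h1
  refine Tw.of_le (Tw.mono hw ?_ (show max (max 3 (τ + 2) + 1) (τ + 2 + 1) + 1 ≤ τ + 4 by omega))
    (norm_nonneg _) h1
  refine Tw.mul hw (Tw.add hw ?_ ?_) (hA'.pow1 he)
  · exact (Tw.nat hn).mul hw ((Tw.two hw).mul hw (Tw.nat he))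
  · exact (((Tw.nat he).mul hw ht).mul hw (Tw.two_pow1 hs)).mono hw (by omega)

theorem tw_jac (hP : Bd (pe s) (2 ^ s) P) {t : ℂ} {τ : ℕ} (hτ : 2 ≤ τ)
    (ht : Tw (pw n s) τ ‖t‖) {η : Fin n → ℂ} (hη : ∀ i, eval η (sys (pe s) (rr t P) i) = 0) :
    Tw (pw n s) (τ + 7) ‖eval η (jac (pe s) (rr t P))‖ := by
  obtain ⟨h4, hD, he, hn, hm, hs⟩ := pw_facts n s
  have hw : 2 ≤ pw n s := by omega
  obtain ⟨A, hA, hA', hr, hroot⟩ := tw_root hP hτ ht
  have h1 := bd_jac hr A hA η (hroot η hη)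
  rw [Fintype.card_fin] at h1
  have h2 : 2 * s * n ≤ pw n s := by
    have : n * pe s = 2 * s * n + n := by unfold pe; ring
    omega
  refine Tw.of_le (Tw.mono hw (((Tw.factorial hn).mul hw (((Tw.one.add hw hA').mul hw
    (Tw.two_pow1 (show 2 * s + 1 ≤ pw n s from le_trans (Nat.le_succ _) he))).pow1 hn)).mul hw
      (hA'.pow1 h2)) (by omega)) (norm_nonneg _) h1

theorem tw_t0 (n s : ℕ) : Tw (pw n s) 17 ‖(2 : ℂ) ^ (pw n s ^ 17)‖ := by
  simpa using Tw.two_pow (pw n s) 17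

theorem tw_base (hd : Dg (pe s) P) (hP : Bd (pe s) (2 ^ s) P) {η : Fin n → ℂ}
    (hη : ∀ i, eval η (sys (pe s) (pr s P) i) = 0) (j : ℕ) :
    Tw (pw n s) 25 ‖eval η (base (pe s) (pw n s ^ 37) (pr s P) (ph s P) j)‖ := by
  obtain ⟨h4, hD, he, hn, hm, hs⟩ := pw_facts n s
  have hw : 2 ≤ pw n s := by omega
  unfold base
  split_ifs
  · rw [ph, map_sub, eval_C]
    refine Tw.of_le (Tw.mono hw ((Tw.two_pow (pw n s) 13).add hw
      (tw_hh hP (by omega) (tw_t0 n s) hη)) (by omega)) (norm_nonneg _) ?_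
    refine (norm_sub_le _ _).trans (le_of_eq ?_)
    simp
  · obtain ⟨A, hA, hA', -, hroot⟩ := tw_root hP (by omega) (tw_t0 n s)
    have hX : ∀ (i : ℕ) (η : Fin n → ℂ), (∀ i, eval η (sys (pe s) (pr s P) i) = 0) →
        ‖eval η (XN n ℂ i)‖ ≤ A := by
      intro i η hη
      unfold XN
      split_ifs
      · rw [eval_X]
        exact hroot η hη _
      · simpa using zero_le_one.trans hA
    set g := XN n ℂ ((j - 1) % n)
    set k := (j - 1) / n
    have hE : ∀ l ≤ pe s ^ n, Tw (pw n s) 22 ‖EE (pe s) (pw n s ^ 37) (pr s P) g l‖ := by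
      intro l hl
      refine tw_EE (l := 19) (pe_pos s) (dg_rr (pe_pos s) hd _) ?_ hw (by simp; omega) (by omega)
        (fun η hη => hA'.of_le (norm_nonneg _) (hX _ η hη)) (by simpa using hl)
      have h1 : g.totalDegree ≤ 1 := dg_iff.1 (dg_XN n ℂ _)
      have h2 : pw n s ≤ pw n s ^ 37 := Nat.le_self_pow (by omega) _
      rw [Fintype.card_fin]
      exact (Nat.mul_le_mul_left _ h1).trans (by rw [mul_one]; exact le_trans (by omega) h2)
    rw [vv, map_sum, Fintype.card_fin]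
    refine Tw.of_le (Tw.mono hw ((Tw.nat (show pe s ^ n + 1 ≤ pw n s by omega)).mul hw
      (Tw.two_pow _ 24)) (by omega)) (norm_nonneg _) ((norm_sum_le _ _).trans ?_)
    refine (Finset.sum_le_card_nsmul _ _ (2 ^ (pw n s ^ 24)) fun l hl => ?_).trans (by simp)
    have hl' : l ≤ pe s ^ n := Nat.lt_succ_iff.1 (Finset.mem_range.1 hl)
    have h1 : Tw (pw n s) 2 (((pe s ^ n - l).descFactorial k : ℕ) : ℝ) :=
      (Tw.factorial (show pe s ^ n - l ≤ pw n s by omega)).of_le (Nat.cast_nonneg _)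
        (by exact_mod_cast descFactorial_le_factorial _ _)
    have h2 := (((hE l hl').mul hw h1).mul hw
      ((hA'.of_le (norm_nonneg _) (hX ((j - 1) % n) η hη)).pow1
        (show pe s ^ n - l - k ≤ pw n s from
          ((Nat.sub_le _ _).trans (Nat.sub_le _ _)).trans (le_trans (Nat.le_add_right _ 2) hD)))).2
    simpa using h2

theorem tw_GC {w m D b N c : ℕ} (h4 : 4 ≤ w) (hm : m ≤ w) (hD : D + 2 ≤ w) (hc : c < D + 1)
    {L : ℂ} {v : ℕ → ℂ} (hL : Tw w 30 ‖L‖) (hv : ∀ j, Tw w 25 ‖v j‖) :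
    Tw w 73 ‖GC (w ^ 32) m D b N c L v‖ := by
  have hw : 2 ≤ w := by omega
  have h1 : ∀ c, Tw w 32 ‖UU L v c‖ := by
    intro c
    refine Tw.of_le ((hL.mul hw (hv (c / 4))).add hw Tw.one) (norm_nonneg _) ?_
    simp only [UU, norm_mul, norm_pow, norm_neg, norm_one, one_pow, one_mul]
    refine (norm_sub_le _ _).trans (le_of_eq ?_)
    simp
  have h2 : ∀ v : ℂ, Tw w 32 ‖v‖ → Tw w 68 ‖WW (w ^ 32) v ^ (2 * m)‖ := by
    intro v hv
    rw [norm_pow]
    refine Tw.pow (k := 66) (j := 2) ?_ (by rw [sq]; exact Nat.mul_le_mul hw hm)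
    have h3 : w ^ 32 + 1 ≤ w ^ 33 := by
      have := Nat.one_le_pow 32 w (by omega)
      have h5 := Nat.mul_le_mul_left (w ^ 32) hw
      rw [pow_succ w 32]
      omega
    refine ((hv.add hw (Tw.two_pow _ 32)).pow h3).of_le (norm_nonneg _) ?_
    rw [WW, norm_prod]
    refine (Finset.prod_le_prod (fun _ _ => norm_nonneg _)
      (g := fun _ => ‖v‖ + 2 ^ (w ^ 32)) fun l hl => ?_).trans (by simp)
    refine (norm_add_le _ _).trans (add_le_add le_rfl ?_)
    rw [norm_pow, Complex.norm_two]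
    exact pow_le_pow_right₀ one_le_two (Nat.lt_succ_iff.1 (Finset.mem_range.1 hl))
  have h3 : ∀ v : ℕ → ℂ, (∀ l, Tw w 32 ‖v l‖) →
      ‖∏ l ∈ Finset.range m, WW (w ^ 32) (v l) ^ (2 * m)‖ ≤ 2 ^ (w ^ 69) := by
    intro v hv
    refine le_trans ?_ ((Tw.two_pow w 68).pow1 hm).2
    rw [norm_prod]
    exact (Finset.prod_le_prod (fun _ _ => norm_nonneg _)
      (g := fun _ => 2 ^ (w ^ 68)) fun l _ => (h2 _ (hv l)).2).trans (by simp)
  have h4' : ∀ u : ℕ → ℂ, (∀ l, Tw w 32 ‖u l‖) → Tw w 71 ‖GG (w ^ 32) m u‖ := by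
    intro u hu
    refine Tw.of_le (((Tw.nat hm).mul hw (Tw.two_pow _ 69)).add hw (Tw.two_pow _ 69))
      (norm_nonneg _) ((norm_sub_le _ _).trans (add_le_add ?_ (h3 u hu)))
    refine (norm_sum_le _ _).trans ((Finset.sum_le_card_nsmul _ _ (2 ^ (w ^ 69))
      fun j _ => h3 (fun l => if l = j then -u l else u l) fun l => ?_).trans (by simp))
    split_ifs
    · rw [norm_neg]
      exact hu l
    · exact hu l
  refine Tw.of_le (((Tw.nat' (k := 2) (m := 2 * (D + 2))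
    (by rw [sq]; exact Nat.mul_le_mul hw hD)).mul hw (h4' _ fun l => h1 (b * N / b ^ l % b))).add hw
    (Tw.nat (show c + 1 ≤ w by omega))) (norm_nonneg _) ((norm_add_le _ _).trans ?_)
  rw [norm_mul, Complex.norm_natCast, Complex.norm_natCast]

theorem tw_pG (hd : Dg (pe s) P) (hP : Bd (pe s) (2 ^ s) P) {η : Fin n → ℂ}
    (hη : ∀ i, eval η (sys (pe s) (pr s P) i) = 0) (N : ℕ) {c : ℕ} (hc : c < pe s ^ n + 1) :
    Tw (pw n s) 73 ‖eval η (pG s P N c)‖ := by
  obtain ⟨h4, hD, he, hn, hm, hs⟩ := pw_facts n s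
  rw [pG, map_GC]
  refine tw_GC h4 hm hD hc ?_ fun j => tw_base hd hP hη j
  rw [map_natCast, Complex.norm_natCast, Nat.cast_pow, Nat.cast_ofNat]
  exact Tw.two_pow (pw n s) 30

end Complex

section Degrees

variable {R : Type*} [CommRing R] {n s : ℕ} {P : MvPolynomial (Fin n) R}

theorem totalDegree_ph (hd : Dg (pe s) P) : (ph s P).totalDegree ≤ pw n s := by
  obtain ⟨h4, hD, he, hn, hm, hs⟩ := pw_facts n s
  exact (dg_iff.1 (((Dg.C _).mono (by omega)).sub (dg_hh hd _))).trans he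

theorem pK3 (n s : ℕ) : pe s ^ n * ((n * pe s + 1) * (2 * (n * pe s + 1)) * (pw n s ^ 32 + 1) *
    pw n s) ≤ pw n s ^ 37 := by
  obtain ⟨h4, hD, he, hn, hm, hs⟩ := pw_facts n s
  have h1 := Nat.one_le_pow 32 (pw n s) (by omega)
  calc _ ≤ pw n s * (pw n s * (2 * pw n s) * (2 * pw n s ^ 32) * pw n s) := by
        gcongr <;> omega
    _ = 4 * pw n s ^ 36 := by ring
    _ ≤ pw n s * pw n s ^ 36 := Nat.mul_le_mul_right _ h4
    _ = _ := by ring

theorem pK2 (n s : ℕ) : pe s ^ n * pw n s ≤ pw n s ^ 37 := by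
  obtain ⟨h4, hD, he, hn, hm, hs⟩ := pw_facts n s
  calc _ ≤ pw n s * pw n s := Nat.mul_le_mul_right _ (by omega)
    _ = pw n s ^ 2 := by ring
    _ ≤ _ := Nat.pow_le_pow_right (by omega) (by omega)

theorem totalDegree_pG (hd : Dg (pe s) P) (N c : ℕ) :
    pe s ^ n * (pG s P N c).totalDegree ≤ pw n s ^ 37 := by
  obtain ⟨h4, hD, he, hn, hm, hs⟩ := pw_facts n s
  exact (Nat.mul_le_mul_left _ (dg_GC _ _ _ _ _ _ _
    (dg_base _ _ _ (totalDegree_ph hd) (by omega))).totalDegree_le).trans (pK3 n s)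

end Degrees

variable {n s : ℕ} {P : MvPolynomial (Fin n) ℤ}

theorem natAbs_le_of_tw {w k : ℕ} {z : ℤ} (h : Tw w k ‖(z : ℂ)‖) : z.natAbs ≤ 2 ^ (w ^ k) := by
  have := h.2
  rw [Complex.norm_intCast, ← Int.cast_abs, Int.abs_eq_natAbs] at this
  exact_mod_cast this

theorem finalInt_bound (hd : P.totalDegree ≤ s)
    (hP : Bd s (2 ^ s) (map (Int.castRingHom ℂ) P)) (N : ℕ) {c : ℕ} (hc : c < pe s ^ n + 1) :
    (finalInt s P N c).natAbs ≤ 2 ^ (pw n s ^ 76) := by
  obtain ⟨h4, hD, he, hn, hm, hs⟩ := pw_facts n s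
  have hse : s ≤ pe s := by unfold pe; omega
  have hd' := (dg_iff.2 (hd.trans hse)).map (Int.castRingHom ℂ)
  have hP' := hP.mono hse le_rfl
  refine natAbs_le_of_tw ?_
  have := map_finalInt (Int.castRingHom ℂ) s P N c
  rw [eq_intCast] at this
  rw [this, finalInt]
  exact tw_EE (l := 73) (pe_pos s) (dg_rr (pe_pos s) hd' _)
    (by simpa using totalDegree_pG hd' N c) (by omega) (by simp; omega) (by omega)
    (fun η hη => tw_pG hd' hP' hη N hc) (by simp)

theorem core_math (hd : P.totalDegree ≤ s) (hP : Bd s (2 ^ s) (map (Int.castRingHom ℂ) P))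
    (hP0 : ∀ x : Fin n → ℝ, 0 ≤ aeval x P) :
    (∃ x : Fin n → ℝ, aeval x P = 0) ↔
      ∃ N < (4 * (n * (pe s ^ n + 1) + 1)) ^ (n * pe s + 1), ∃ c < pe s ^ n + 1,
        finalInt s P N c < 0 := by
  obtain ⟨h4, hD, he, hn, hm, hs⟩ := pw_facts n s
  have hw : 2 ≤ pw n s := by omega
  have hse : s ≤ pe s := by unfold pe; omega
  have hde : P.totalDegree ≤ pe s := hd.trans hse
  have hdZ := dg_iff.2 hde
  have hd' := hdZ.map (Int.castRingHom ℂ)
  have hP' := hP.mono hse le_rfl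
  have hK1 : pe s ^ Fintype.card (Fin n) * (pe s + 1) ≤ pw n s ^ 37 := by
    rw [Fintype.card_fin]
    exact (Nat.mul_le_mul_left _ he).trans (pK2 n s)
  have hK0 : pe s ^ Fintype.card (Fin n) * (Fintype.card (Fin n) * pe s) ≤ pw n s ^ 37 := by
    rw [Fintype.card_fin]
    exact (Nat.mul_le_mul_left _ (by omega)).trans (pK2 n s)
  have hone : ∀ z : ℂ, ‖z‖ = 1 → Tw (pw n s) 2 ‖z‖ := fun z hz => by
    rw [hz]
    exact Tw.one.mono hw (by omega)
  have hM1 : ∀ k ≤ pe s ^ Fintype.card (Fin n), ∀ j,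
      |((epsT (pe s) (pw n s ^ 37) P k).coeff j : ℝ)| ≤ 2 ^ (pw n s ^ 12) := by
    intro k hk
    refine abs_coeff_le_of_circle _ fun z hz => ?_
    rw [aeval_epsT]
    exact ((tw_EE (pe_pos s) (dg_rr (pe_pos s) hd' z)
      ((Nat.mul_le_mul_left _ (dg_iff.1 (dg_hh hd' z))).trans hK1) hw (by simp; omega) (by omega)
      (fun η hη => tw_hh hP' le_rfl (hone z hz) hη) hk).mono hw (by omega)).2
  have hM2 : ∀ j, |((delT (pe s) (pw n s ^ 37) P).coeff j : ℝ)| ≤ 2 ^ (pw n s ^ 12) := by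
    refine abs_coeff_le_of_circle _ fun z hz => ?_
    rw [aeval_delT]
    exact (tw_EE (pe_pos s) (dg_rr (pe_pos s) hd' z)
      ((Nat.mul_le_mul_left _ (totalDegree_jac_le (dg_rr (pe_pos s) hd' z))).trans hK0) hw
      (by simp; omega) (by omega) (fun η hη => tw_jac hP' le_rfl (hone z hz) hη) le_rfl).2
  have hR := ((Tw.two_pow (pw n s) 12).add hw Tw.one)
  have hC := stepC (odd_pe s) hde (fun x => by rw [eval_map]; exact hP0 x) hK1 hM1
    (R := 2 ^ (pw n s ^ 13)) (t₀ := 2 ^ (pw n s ^ 17)) hR.2 (by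
      have h1 : Tw (pw n s) 1 (((pe s ^ Fintype.card (Fin n) : ℕ) : ℝ) + 1) := by
        have := Tw.nat (show pe s ^ n + 1 ≤ pw n s by omega)
        simpa using this
      exact ((((Tw.two_pow (pw n s) 12).mul hw h1).mul hw (((Tw.two hw).mul hw
        (Tw.two_pow (pw n s) 13)).pow1 (show pe s ^ Fintype.card (Fin n) ≤ pw n s by
          simp; omega))).add hw Tw.one).2)
  have hjac : EE (pe s) (pw n s ^ 37) (pr s P) (jac (pe s) (pr s P)) (pe s ^ n) ≠ 0 := by
    intro h0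
    refine aeval_ne_zero_of_le (K := ℂ) (delT_ne_zero (pe_pos s) hde hK0) hM2
      (r := 2 ^ (pw n s ^ 17)) (by simpa using (hR.mono hw (show _ ≤ 17 by omega)).2) ?_
    have := map_EE (Int.castRingHom ℂ) (pe s) (pw n s ^ 37) (pr s P) (jac (pe s) (pr s P))
      (pe s ^ n)
    rw [h0, map_zero, map_jac, map_pr] at this
    rw [aeval_delT, Fintype.card_fin]
    exact this.symm
  have hM' := (Tw.two_pow (pw n s) 28).add hw Tw.one
  have hD' := stepD_int (pe_pos s) (dg_rr (pe_pos s) hdZ (2 ^ (pw n s ^ 17))) (ph s P)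
    (d := pw n s) (K0 := pw n s ^ 37) (K1 := pw n s ^ 37) (K2 := pw n s ^ 37) (K3 := pw n s ^ 37)
    (M := 2 ^ (pw n s ^ 28)) (L := 2 ^ (pw n s ^ 30)) (B := pw n s ^ 32) (m := n * pe s + 1)
    (totalDegree_ph hdZ) (by omega)
    ((Nat.mul_le_mul_left _ (totalDegree_jac_le (dg_rr (pe_pos s) hdZ _))).trans
      (by simpa using hK0)) hjac
    ((Nat.le_mul_of_pos_right _ (by omega)).trans (pK2 n s)) (pK2 n s) (pK3 n s)
    (fun j _ k hk => by
      have h1 := map_EE (Int.castRingHom ℂ) (pe s) (pw n s ^ 37) (pr s P)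
        (base (pe s) (pw n s ^ 37) (pr s P) (ph s P) j) k
      rw [eq_intCast, map_base, map_pr, map_ph] at h1
      have h2 := tw_EE (l := 25) (N := pw n s ^ 37) (pe_pos s) (dg_rr (pe_pos s) hd' _)
        (g := base (pe s) (pw n s ^ 37) (pr s (map (Int.castRingHom ℂ) P))
          (ph s (map (Int.castRingHom ℂ) P)) j)
        (by
          rw [Fintype.card_fin]
          exact (Nat.mul_le_mul_left _ (dg_base _ _ _ (totalDegree_ph hd')
            (by omega) j).totalDegree_le).trans (pK2 n s)) hw (by simp; omega) (by omega)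
        (fun η hη => tw_base hd' hP' hη j) (k := k) (by simpa using hk)
      have h3 := natAbs_le_of_tw (h1 ▸ h2)
      rw [Int.abs_eq_natAbs]
      exact_mod_cast h3)
    (by exact_mod_cast ((Tw.two hw).mul hw hM').2)
    (by exact_mod_cast (((Tw.two_pow (pw n s) 30).mul hw hM').add hw Tw.one).2)
    (by
      calc pe s ^ n ≤ (2 ^ pe s) ^ n := Nat.pow_le_pow_left Nat.lt_two_pow_self.le _
        _ = 2 ^ (n * pe s) := by rw [← pow_mul, mul_comm]
        _ < _ := Nat.pow_lt_pow_right (by omega) (by omega))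
  have key : ∀ (x : Fin n → ℝ) (g : MvPolynomial (Fin n) ℤ),
      aeval x g = eval x (map (Int.castRingHom ℝ) g) := fun x g => by rw [eval_map]; rfl
  refine Iff.trans ?_ hD'
  simp only [key]
  refine hC.trans (exists_congr fun x => and_congr ?_ ?_)
  · simp only [map_sys, map_rr]
    simp
  · rw [map_ph, ph, map_sub, eval_C, sub_pos]

end Vale.Agent.P337
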