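import Vale.Agent.P337.Dir.ZE
import Vale.Agent.P337.Dir.Core
import Vale.Agent.P337.CH.Sign

/-!
Real feasibility of a computable family of nonnegative integer polynomials is decidable in the
counting hierarchy.
-/

namespace Vale.Agent.P337

open Vale.Agent.Lib.PolyTime Finset MvPolynomial

variable {α γ : Type*} [Enc α] [Enc γ]

/-- The threshold for the primes. -/
def pT (n s : ℕ) : ℕ :=
  (n * pe s + pe s + 1) * (pw n s ^ 37 + 1) + pe s ^ n * pe s ^ n + 2

@[fun_prop]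
theorem CHF_pe {s : γ → ℕ} (hs : CHF s) : CHF (fun x => pe (s x)) := by
  unfold pe
  fun_prop

@[fun_prop]
theorem PBd_pe {s : γ → ℕ} (hs : PBd s) : PBd (fun x => pe (s x)) := by
  unfold pe
  fun_prop

@[fun_prop]
theorem CHF_pw {n s : γ → ℕ} (hn : CHF n) (hnb : PBd n) (hs : CHF s) :
    CHF (fun x => pw (n x) (s x)) := by
  unfold pw pe
  fun_prop

attribute [local irreducible] pw pe

theorem CHF_pT {n s : γ → ℕ} (hn : CHF n) (hnb : PBd n) (hs : CHF s) :
    CHF (fun x => pT (n x) (s x)) := by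
  unfold pT
  fun_prop

theorem ZC_finalInt {E : γ → Prop} {p n s N c : γ → ℕ} (hp : CHF p) (hn : CHF n) (hnb : PBd n)
    (hs : CHF s) (hsb : PBd s) (hN : CHF N) (hc : CHF c)
    {P : (x : γ) → MvPolynomial (Fin (n x)) (ZMod (p x))} (hP : ZP E p n P)
    (h : ∀ x, E x → Dg (pe (s x)) (P x) ∧ pT (n x) (s x) < p x) :
    ZC E p (fun x => finalInt (s x) (P x) (N x) (c x)) := by
  have he := CHF_pe hs
  have ht : ZC E p (fun x => 2 ^ (pw (n x) (s x) ^ 17)) := ZC.pow hp ZC.two (by fun_prop)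
  have hS : Sys E p n (fun x => pe (s x)) (fun x => pw (n x) (s x) ^ 37)
      (fun x => pr (s x) (P x)) := by
    refine ⟨hp, hn, hnb, he, by fun_prop, (ZP.rr hp hn hnb ht hP fun x hx => ?_).congr'
      (fun y _ _ => by rw [pr]),
      fun x hx => ⟨pe_pos _, dg_rr (pe_pos _) (h x hx).1 _, (h x hx).2⟩⟩
    have h1 := (h x hx).1.totalDegree_le
    have h2 := (h x hx).2
    have h3 : pe (s x) + 1 ≤ (n x * pe (s x) + pe (s x) + 1) * (pw (n x) (s x) ^ 37 + 1) :=
      le_trans (by omega) (Nat.le_mul_of_pos_right _ (Nat.succ_pos _))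
    unfold pT at h2
    omega
  have h0 : ZP E p n (fun x => ph (s x) (P x)) :=
    (ZP.sub hp (ZP.C (ZC.pow hp ZC.two (k := fun x => pw (n x) (s x) ^ 13) (by fun_prop)))
      (ZP.hh hp hn he ht hP)).congr' fun x _ _ => by rw [ph]
  have hb : ZP (fun y : γ × ℕ => E y.1) (fun y => p y.1) (fun y => n y.1)
      (fun y => base (pe (s y.1)) (pw (n y.1) (s y.1) ^ 37) (pr (s y.1) (P y.1))
        (ph (s y.1) (P y.1)) y.2) :=
    (hS.comp (u := fun y : γ × ℕ => y.1) (by fun_prop) fun _ h => h).base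
      (h0.comp (u := fun y : γ × ℕ => y.1) (by fun_prop)) (j := fun y => y.2) (by fun_prop)
      fun y _ => (Nat.le_mul_of_pos_right _ (by have := (pw_facts (n y.1) (s y.1)).1; omega)).trans
        (pK2 _ _)
  have hL : ZP E p n (fun x => ((2 ^ (pw (n x) (s x) ^ 30) : ℕ) :
      MvPolynomial (Fin (n x)) (ZMod (p x)))) :=
    (ZP.C (ZC.pow hp ZC.two (k := fun x => pw (n x) (s x) ^ 30) (by fun_prop))).congr'
      fun x _ _ => by rw [map_pow, map_ofNat, Nat.cast_pow, Nat.cast_ofNat]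
  have hG : ZP E p n (fun x => pG (s x) (P x) (N x) (c x)) :=
    (ZP.GC hp (B := fun x => pw (n x) (s x) ^ 32) (m := fun x => n x * pe (s x) + 1)
      (D := fun x => pe (s x) ^ n x) (b := fun x => 4 * (n x * (pe (s x) ^ n x + 1) + 1))
      (by fun_prop) (by fun_prop) (by fun_prop) (by fun_prop) (by fun_prop) hN hc hL
      (w := fun x j => base (pe (s x)) (pw (n x) (s x) ^ 37) (pr (s x) (P x)) (ph (s x) (P x)) j)
      (by exact hb)).congr' fun x _ _ => by rw [pG]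
  exact (hS.EE hG (k := fun x => pe (s x) ^ n x) (by fun_prop)
    fun x hx => ⟨totalDegree_pG (h x hx).1 _ _, le_rfl⟩).congr' fun x _ _ => by rw [finalInt]

theorem core_CH {n s : α → ℕ} (P : (a : α) → MvPolynomial (Fin (n a)) ℤ) (hn : CHF n)
    (hnb : PBd n) (hs : CHF s) (hsb : PBd s) (hd : ∀ a, (P a).totalDegree ≤ s a)
    (hP0 : ∀ a (x : Fin (n a) → ℝ), 0 ≤ aeval x (P a))
    (hP : ∀ a (ρ : ℝ), 1 ≤ ρ → ∀ η : Fin (n a) → ℂ, (∀ i, ‖η i‖ ≤ ρ) →
      ‖aeval η (P a)‖ ≤ 2 ^ s a * ρ ^ s a)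
    (heval : ∃ g : α × ℕ × List ℕ → ℕ, CHF g ∧ ∀ a p l, p.Prime → ((g (a, p, l) : ℕ) : ZMod p) =
      aeval (fun i : Fin (n a) => ((l.getD i 0 : ℕ) : ZMod p)) (P a)) :
    CHP (fun a => ∃ x : Fin (n a) → ℝ, aeval x (P a) = 0) := by
  have hBd : ∀ a, Bd (s a) (2 ^ s a) (map (Int.castRingHom ℂ) (P a)) := fun a ρ hρ η hη => by
    rw [eval_map]
    exact hP a ρ hρ η hη
  obtain ⟨g, hg, hg'⟩ := heval
  have h1 : MC (fun a (b : ℕ × ℕ) => b.2 < pe (s a) ^ n a + 1)
      (fun a b => finalInt (s a) (P a) b.1 b.2) := by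
    refine ⟨⟨fun a => pT (n a) (s a), CHF_pT hn hnb hs, ?_⟩,
      ⟨fun x => pw (n x.1) (s x.1) ^ 76, by fun_prop,
        fun a b hab => finalInt_bound (hd a) (hBd a) _ hab⟩⟩
    refine (ZC_finalInt (γ := (α × ℕ × ℕ) × ℕ) (p := fun y => y.2) (n := fun y => n y.1.1)
      (s := fun y => s y.1.1) (N := fun y => y.1.2.1) (c := fun y => y.1.2.2) (by fun_prop)
      (by fun_prop) (by fun_prop) (by fun_prop) (by fun_prop) (by fun_prop) (by fun_prop)
      (P := fun y => map (Int.castRingHom (ZMod y.2)) (P y.1.1))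
      ⟨fun z => g (z.1.1.1, z.1.2, z.2), by fun_prop, fun z _ hp => ?_⟩
      fun y hy => ⟨?_, hy.2⟩).congr' fun y _ _ => ?_
    · dsimp only
      rw [hg' _ _ _ hp, eval_map]
      rfl
    · exact (dg_iff.2 ((hd _).trans (by unfold pe; omega))).map _
    · rw [← map_finalInt, eq_intCast]
  have h2 := h1.chp_neg (by fun_prop)
  have h3 : CHP (fun a => ∃ N, N < (4 * (n a * (pe (s a) ^ n a + 1) + 1)) ^ (n a * pe (s a) + 1) ∧
      ∃ c, c < pe (s a) ^ n a + 1 ∧ (c < pe (s a) ^ n a + 1 ∧ finalInt (s a) (P a) N c < 0)) :=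
    CHP.exists_lt (CHP.exists_lt (h2.comp (f := fun z : (α × ℕ) × ℕ => (z.1.1, z.1.2, z.2))
      (by fun_prop)) (by fun_prop)) (by fun_prop)
  refine h3.congr fun a => ?_
  rw [core_math (hd a) (hBd a) (hP0 a)]
  simp only [and_self_left]

end Vale.Agent.P337
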