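import Vale.Agent.P337.Dir.ZP
import Vale.Agent.P337.StepC

/-!
The quantities `tauK`, `EE`, `vv`, `base`, `GC` are computable modulo large primes.
-/

namespace Vale.Agent.P337

open Vale.Agent.Lib.PolyTime Finset MvPolynomial

variable {γ γ' : Type*} [Enc γ] [Enc γ']

theorem XN_val {R : Type*} [CommRing R] {n : ℕ} (i : Fin n) : XN n R i = X i := by
  simp [XN]

theorem natDegree_newtonL {R : Type*} [CommRing R] (D : ℕ) (q : ℕ → R) :
    (newtonL D q).natDegree ≤ D :=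
  Polynomial.natDegree_sum_le_of_forall_le _ _ fun _ hk =>
    (Polynomial.natDegree_C_mul_X_pow_le _ _).trans (mem_range.1 hk)

theorem natDegree_newtonE {R : Type*} [CommRing R] (D : ℕ) (q : ℕ → R) :
    (newtonE D q).natDegree ≤ D * D :=
  Polynomial.natDegree_sum_le_of_forall_le _ _ fun _ hm =>
    (Polynomial.natDegree_C_mul_le _ _).trans (Polynomial.natDegree_pow_le.trans
      (Nat.mul_le_mul (Nat.lt_succ_iff.1 (mem_range.1 hm)) (natDegree_newtonL D q)))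

/-- A computable system `x_i ^ e = r_i` modulo a large prime. -/
structure Sys (E : γ → Prop) (p n e K : γ → ℕ)
    (r : (x : γ) → Fin (n x) → MvPolynomial (Fin (n x)) (ZMod (p x))) : Prop where
  hp : CHF p
  hn : CHF n
  hnb : PBd n
  he : CHF e
  hK : CHF K
  hr : ZP (fun y : γ × ℕ => E y.1 ∧ y.2 < n y.1) (fun y => p y.1) (fun y => n y.1)
    (fun y => finExt (r y.1) y.2)
  cond : ∀ x, E x → 1 ≤ e x ∧ (∀ i, Dg ((e x : ℤ) - 1) (r x i)) ∧
    (n x * e x + e x + 1) * (K x + 1) + e x ^ n x * e x ^ n x + 2 < p x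

variable {E : γ → Prop} {p n e K : γ → ℕ}
  {r : (x : γ) → Fin (n x) → MvPolynomial (Fin (n x)) (ZMod (p x))}
  {g : (x : γ) → MvPolynomial (Fin (n x)) (ZMod (p x))}

theorem Sys.comp (h : Sys E p n e K r) {u : γ' → γ} (hu : CHF u) {E' : γ' → Prop}
    (hE : ∀ y, E' y → E (u y)) :
    Sys E' (fun y => p (u y)) (fun y => n (u y)) (fun y => e (u y)) (fun y => K (u y))
      (fun y => r (u y)) :=
  ⟨h.hp.comp hu, h.hn.comp hu, PBd_comp h.hnb hu, h.he.comp hu, h.hK.comp hu,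
    (h.hr.comp (u := fun y : γ' × ℕ => (u y.1, y.2)) (by fun_prop)).mono'
      fun y hy => ⟨hE _ hy.1, hy.2⟩, fun y hy => h.cond _ (hE y hy)⟩

theorem Sys.jac (h : Sys E p n e K r) : ZP E p n (fun x => jac (e x) (r x)) := by
  obtain ⟨hp, hn, hnb, he, hK, hr, hc⟩ := h
  have h1 : ZP (fun y : (γ × ℕ) × ℕ => E y.1.1 ∧ y.1.2 < n y.1.1 ∧ y.2 < n y.1.1)
      (fun y => p y.1.1) (fun y => n y.1.1) (fun y => finExt (fun j => pderiv j
        (XN (n y.1.1) (ZMod (p y.1.1)) y.1.2 ^ e y.1.1 - finExt (r y.1.1) y.1.2)) y.2) := by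
    refine ZP.pderiv (by fun_prop) (by fun_prop) (by fun_prop) (ZP.sub (by fun_prop)
      (ZP.pow (by fun_prop) (ZP.XN (by fun_prop) (by fun_prop)) (by fun_prop))
      ((hr.comp (u := fun y : (γ × ℕ) × ℕ => y.1) (by fun_prop)).mono' fun y hy => ⟨hy.1, hy.2.1⟩))
      (by fun_prop) fun y hy => ?_
    obtain ⟨h1, h2, h3⟩ := hc _ hy.1
    have h4 : e y.1.1 + 1 ≤ (n y.1.1 * e y.1.1 + e y.1.1 + 1) * (K y.1.1 + 1) :=
      le_trans (by omega) (Nat.le_mul_of_pos_right _ (Nat.succ_pos _))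
    have h5 := (dg_sys h2 ⟨y.1.2, hy.2.1⟩).totalDegree_le
    rw [sys, ← XN_val, ← finExt_of_lt (r y.1.1) hy.2.1] at h5
    exact ⟨hy.2.2, by dsimp only at h5; omega, by omega⟩
  refine (ZC.det (γ := γ × List ℕ) (E := fun y => E y.1) (p := fun y => p y.1)
    (n := fun y => n y.1) (by fun_prop) (by fun_prop) (by fun_prop)
    (M := fun y => Matrix.of fun i j => eval (pt (p y.1) (n y.1) y.2)
      (pderiv j (sys (e y.1) (r y.1) i)))
    ((ZC.comp h1 (u := fun z : ((γ × List ℕ) × ℕ) × ℕ => (((z.1.1.1, z.1.2), z.2), z.1.1.2))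
      (by fun_prop)).congr' fun z hz _ => ?_)).congr' fun y _ _ => ?_
  · dsimp only
    rw [finExt_of_lt _ hz.2.2, finExt_of_lt _ hz.2.1, finExt_of_lt _ hz.2.1,
      finExt_of_lt _ hz.2.2, Matrix.of_apply, sys, ← XN_val]
  · dsimp only
    rw [P337.jac, RingHom.map_det]
    rfl

theorem Sys.geo (h : Sys E p n e K r) : ZP E p n (fun x => ∏ i, geo (e x) (K x) (r x) i) := by
  obtain ⟨hp, hn, hnb, he, hK, hr, hc⟩ := h
  refine (ZP.prod_range hp hn (H := fun x i => ∑ k ∈ range (K x + 1), finExt (r x) i ^ k *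
    (XN (n x) (ZMod (p x)) i ^ e x) ^ (K x - k)) (ZP.sum_range (by fun_prop) (ZP.mul
      (ZP.pow (by fun_prop) ((hr.comp (u := fun y : (γ × ℕ) × ℕ => y.1) (by fun_prop)).mono'
        fun y hy => hy.1) (by fun_prop))
      (ZP.pow (by fun_prop) (ZP.pow (by fun_prop) (ZP.XN (by fun_prop) (by fun_prop))
        (by fun_prop)) (by fun_prop))))).congr' fun x _ _ => ?_
  rw [prod_range]
  simp only [finExt_val, XN_val, P337.geo]

theorem Sys.tauK (h : Sys E p n e K r) (hg : ZP E p n g)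
    (hd : ∀ x, E x → (g x).totalDegree ≤ K x) :
    ZC E p (fun x => tauK (e x) (K x) (r x) (g x)) := by
  have he := h.he
  have hK := h.hK
  refine ZC.mvcoeff h.hp h.hn h.hnb ((hg.mul h.jac).mul h.geo)
    (k := fun x => e x * K x + (e x - 1)) (by fun_prop) fun x hx => ?_
  obtain ⟨h1, h2, h3⟩ := h.cond x hx
  have h4 : Dg ((K x + n x * e x + n x * (e x * K x) : ℕ) : ℤ)
      (g x * P337.jac (e x) (r x) * ∏ i, P337.geo (e x) (K x) (r x) i) := by
    refine (((dg_iff.2 (hd x hx)).mul (dg_iff.2 (totalDegree_jac_le h2))).mul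
      (Dg.prod univ fun i _ => dg_geo h2 (K x) i)).mono ?_
    simp
  have h5 := h4.totalDegree_le
  have h6 : (n x * e x + e x + 1) * (K x + 1) =
      K x + n x * e x + n x * (e x * K x) + e x * K x + e x + 1 := by ring
  omega

theorem Sys.EE (h : Sys E p n e K r) (hg : ZP E p n g) {k : γ → ℕ} (hk : CHF k)
    (hd : ∀ x, E x → e x ^ n x * (g x).totalDegree ≤ K x ∧ k x ≤ e x ^ n x) :
    ZC E p (fun x => EE (e x) (K x) (r x) (g x) (k x)) := by
  have hp := h.hp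
  have hn := h.hn
  have hnb := h.hnb
  have he := h.he
  have h1 : ZC (fun y : γ × ℕ => E y.1 ∧ y.2 < e y.1 ^ n y.1) (fun y => p y.1)
      (fun y => P337.tauK (e y.1) (K y.1) (r y.1) (g y.1 ^ (y.2 + 1))) :=
    (h.comp (u := fun y : γ × ℕ => y.1) (by fun_prop) fun y hy => hy.1).tauK
      (ZP.pow (by fun_prop) ((hg.comp (u := fun y : γ × ℕ => y.1) (by fun_prop)).mono'
        fun y hy => hy.1) (by fun_prop))
      fun y hy => (totalDegree_pow _ _).trans ((Nat.mul_le_mul_right _ hy.2).trans (hd _ hy.1).1)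
  have h2 : ZC (fun y : γ × ℕ => E y.1) (fun y => p y.1)
      (fun y => (newtonL (e y.1 ^ n y.1) fun j => P337.tauK (e y.1) (K y.1) (r y.1)
        (g y.1 ^ j)).eval ((y.2 : ℕ) : ZMod (p y.1))) := by
    refine (ZC.sum_range (m := fun y : γ × ℕ => e y.1 ^ n y.1) (by fun_prop)
      (H := fun y k => (-1) ^ k * (∏ j ∈ range (e y.1 ^ n y.1),
        ((if j = k then 1 else j + 1 : ℕ) : ZMod (p y.1))) *
          P337.tauK (e y.1) (K y.1) (r y.1) (g y.1 ^ (k + 1)) *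
            ((y.2 : ℕ) : ZMod (p y.1)) ^ (k + 1))
      (ZC.mul (ZC.mul (ZC.mul (ZC.negOnePow (by fun_prop) (by fun_prop))
        (ZC.prod_range (by fun_prop) (by fun_prop) (ZC.natCast (by fun_prop))))
        (h1.comp (u := fun z : (γ × ℕ) × ℕ => (z.1.1, z.2)) (by fun_prop)))
        (ZC.pow (by fun_prop) (ZC.natCast (by fun_prop)) (by fun_prop)))).congr'
      fun y _ _ => ?_
    simp only [newtonL, Polynomial.eval_finsetSum, Polynomial.eval_mul, Polynomial.eval_C,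
      Polynomial.eval_pow, Polynomial.eval_X, Nat.cast_prod]
  refine (ZC.ucoeff hp (Q := fun x => newtonE (e x ^ n x) fun j => P337.tauK (e x) (K x) (r x)
    (g x ^ j)) ?_ hk fun x hx => ?_).congr' fun x _ _ => by rw [P337.EE, Fintype.card_fin]
  · refine (ZC.sum_range (m := fun y : γ × ℕ => e y.1 ^ n y.1 + 1) (by fun_prop)
      (H := fun y m => (((e y.1 ^ n y.1).factorial : ℕ) : ZMod (p y.1)) ^ (e y.1 ^ n y.1 - m) *
        (((e y.1 ^ n y.1).descFactorial (e y.1 ^ n y.1 - m) : ℕ) : ZMod (p y.1)) *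
          ((newtonL (e y.1 ^ n y.1) fun j => P337.tauK (e y.1) (K y.1) (r y.1)
            (g y.1 ^ j)).eval ((y.2 : ℕ) : ZMod (p y.1))) ^ m)
      (ZC.mul (ZC.mul (ZC.pow (by fun_prop) (ZC.factorial (by fun_prop) (by fun_prop))
        (by fun_prop)) (ZC.descFactorial (by fun_prop) (by fun_prop) (by fun_prop)))
        (ZC.pow (by fun_prop) ((h2.comp (u := fun z : (γ × ℕ) × ℕ => z.1) (by fun_prop)).mono'
          fun z hz => hz.1) (by fun_prop)))).congr' fun y _ _ => ?_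
    simp only [newtonE, Polynomial.eval_finsetSum, Polynomial.eval_mul, Polynomial.eval_C,
      Polynomial.eval_pow, Nat.cast_mul, Nat.cast_pow]
  · obtain ⟨h3, -, h4⟩ := h.cond x hx
    have h5 := natDegree_newtonE (e x ^ n x) fun j => P337.tauK (e x) (K x) (r x) (g x ^ j)
    have h6 := (hd x hx).2
    have h7 := Nat.le_mul_self (e x ^ n x)
    omega

theorem Sys.vv (h : Sys E p n e K r) (hg : ZP E p n g) {k : γ → ℕ} (hk : CHF k)
    (hd : ∀ x, E x → e x ^ n x * (g x).totalDegree ≤ K x) :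
    ZP E p n (fun x => vv (e x) (K x) (r x) (g x) (k x)) := by
  have hp := h.hp
  have hn := h.hn
  have hnb := h.hnb
  have he := h.he
  have hg' := (hg.comp (u := fun y : γ × ℕ => y.1) (by fun_prop)).mono'
    (E' := fun y => E y.1 ∧ y.2 < e y.1 ^ n y.1 + 1) fun y hy => hy.1
  have h1 : ZC (fun y : γ × ℕ => E y.1 ∧ y.2 < e y.1 ^ n y.1 + 1) (fun y => p y.1)
      (fun y => P337.EE (e y.1) (K y.1) (r y.1) (g y.1) y.2) :=
    (h.comp (u := fun y : γ × ℕ => y.1) (by fun_prop) fun y hy => hy.1).EE hg'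
      (k := fun y => y.2) (by fun_prop) fun y hy => ⟨hd _ hy.1, Nat.lt_succ_iff.1 hy.2⟩
  have h2 : ZC (fun y : γ × ℕ => E y.1 ∧ y.2 < e y.1 ^ n y.1 + 1) (fun y => p y.1)
      (fun y => (-1) ^ y.2 * P337.EE (e y.1) (K y.1) (r y.1) (g y.1) y.2 *
        (((e y.1 ^ n y.1 - y.2).descFactorial (k y.1) : ℕ) : ZMod (p y.1))) :=
    ZC.mul (ZC.mul (ZC.negOnePow (by fun_prop) (by fun_prop)) h1)
      (ZC.descFactorial (by fun_prop) (by fun_prop) (by fun_prop))
  have h3 := ZP.mul (ZP.C h2) (ZP.pow (by fun_prop) hg'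
    (k := fun y => e y.1 ^ n y.1 - y.2 - k y.1) (by fun_prop))
  refine (ZP.sum_range (m := fun x => e x ^ n x + 1) (by fun_prop)
    (H := fun x j => MvPolynomial.C ((-1) ^ j * P337.EE (e x) (K x) (r x) (g x) j *
      (((e x ^ n x - j).descFactorial (k x) : ℕ) : ZMod (p x))) * g x ^ (e x ^ n x - j - k x))
    (by exact h3)).congr' fun x _ _ => ?_
  rw [P337.vv, Fintype.card_fin]

theorem Sys.base (h : Sys E p n e K r) (hg : ZP E p n g) {j : γ → ℕ} (hj : CHF j)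
    (hd : ∀ x, E x → e x ^ n x ≤ K x) :
    ZP E p n (fun x => base (e x) (K x) (r x) (g x) (j x)) := by
  have hn := h.hn
  refine ZP.ite (by fun_prop) (hg.mono' fun _ h => h.1) (ZP.mono' (h.vv
    (ZP.XN hn (i := fun x => (j x - 1) % n x) (by fun_prop)) (k := fun x => (j x - 1) / n x)
    (by fun_prop) fun x hx => ?_) fun _ h => h.1)
  have h1 : (XN (n x) (ZMod (p x)) ((j x - 1) % n x)).totalDegree ≤ 1 := by
    refine dg_iff.1 ?_
    unfold XN
    split_ifs
    · exact Dg.X _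
    · exact Dg.zero _
  exact (Nat.mul_le_mul_left _ h1).trans (by rw [mul_one]; exact hd x hx)

section Ring

variable {F : (x : γ) → ZMod (p x)}

theorem ZC.WW (hp : CHF p) {B : γ → ℕ} (hB : CHF B) (hF : ZC E p F) :
    ZC E p (fun x => WW (B x) (F x)) :=
  ZC.prod_range hp (by fun_prop) (H := fun x l => F x + 2 ^ l)
    (ZC.add ((hF.comp (u := fun y : γ × ℕ => y.1) (by fun_prop)).mono' fun _ h => h.1)
      (ZC.pow (by fun_prop) ZC.two (by fun_prop)))

theorem ZC.GG (hp : CHF p) {B m : γ → ℕ} (hB : CHF B) (hm : CHF m)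
    {u : (x : γ) → ℕ → ZMod (p x)}
    (hu : ZC (fun y : γ × ℕ => E y.1 ∧ y.2 < m y.1) (fun y => p y.1) (fun y => u y.1 y.2)) :
    ZC E p (fun x => GG (B x) (m x) (u x)) := by
  refine ZC.sub hp (ZC.sum_range hm (ZC.prod_range (by fun_prop) (by fun_prop)
    (ZC.pow (by fun_prop) (ZC.WW (by fun_prop) (by fun_prop) ?_) (by fun_prop))))
    (ZC.prod_range hp hm (ZC.pow (by fun_prop) (ZC.WW (by fun_prop) (by fun_prop) hu)
      (by fun_prop)))
  have h1 := (hu.comp (u := fun z : (γ × ℕ) × ℕ => (z.1.1, z.2)) (by fun_prop)).mono'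
    (E' := fun z => (E z.1.1 ∧ z.1.2 < m z.1.1) ∧ z.2 < m z.1.1) fun z hz => ⟨hz.1.1, hz.2⟩
  exact ZC.ite' (by fun_prop) (h1.neg (by fun_prop)) h1

theorem ZC.GC (hp : CHF p) {B m D b N c : γ → ℕ} (hB : CHF B) (hm : CHF m) (hmb : PBd m)
    (hD : CHF D) (hb : CHF b) (hN : CHF N) (hc : CHF c) (hF : ZC E p F)
    {w : (x : γ) → ℕ → ZMod (p x)}
    (hw : ZC (fun y : γ × ℕ => E y.1) (fun y => p y.1) (fun y => w y.1 y.2)) :
    ZC E p (fun x => GC (B x) (m x) (D x) (b x) (N x) (c x) (F x) (w x)) := by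
  refine ZC.add (ZC.mul (ZC.natCast (by fun_prop)) (ZC.GG hp hB hm ?_)) (ZC.natCast (by fun_prop))
  have h1 : CHF (fun y : γ × ℕ => b y.1 * N y.1 / b y.1 ^ min y.2 (m y.1) % b y.1) := by fun_prop
  refine (ZC.mul (ZC.negOnePow (by fun_prop) h1) (ZC.sub (by fun_prop) (ZC.mul
    ((hF.comp (u := fun y : γ × ℕ => y.1) (by fun_prop)).mono' fun _ h => h.1)
    (ZC.mul (ZC.negOnePow (by fun_prop) (h1.div (CHF.const 2)))
      ((hw.comp (u := fun y : γ × ℕ => (y.1, b y.1 * N y.1 / b y.1 ^ min y.2 (m y.1) % b y.1 / 4))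
        (by fun_prop)).mono' fun _ h => h.1))) ZC.one)).congr' fun y hy _ => ?_
  rw [min_eq_left hy.2.le, UU]

end Ring

theorem ZP.GC (hp : CHF p) {B m D b N c : γ → ℕ} (hB : CHF B) (hm : CHF m) (hmb : PBd m)
    (hD : CHF D) (hb : CHF b) (hN : CHF N) (hc : CHF c) (hg : ZP E p n g)
    {w : (x : γ) → ℕ → MvPolynomial (Fin (n x)) (ZMod (p x))}
    (hw : ZP (fun y : γ × ℕ => E y.1) (fun y => p y.1) (fun y => n y.1) (fun y => w y.1 y.2)) :
    ZP E p n (fun x => GC (B x) (m x) (D x) (b x) (N x) (c x) (g x) (w x)) :=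
  (ZC.GC (γ := γ × List ℕ) (B := fun y => B y.1) (m := fun y => m y.1) (D := fun y => D y.1)
    (b := fun y => b y.1) (N := fun y => N y.1) (c := fun y => c y.1) (by fun_prop) (by fun_prop)
    (by fun_prop) (by fun_prop) (by fun_prop) (by fun_prop) (by fun_prop) (by fun_prop) hg
    (w := fun y j => eval (pt (p y.1) (n y.1) y.2) (w y.1 j))
    (ZC.comp hw (u := fun z : (γ × List ℕ) × ℕ => ((z.1.1, z.2), z.1.2)) (by fun_prop))).congr'
      fun _ _ _ => (map_GC _ _ _ _ _ _ _ _ _).symm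

theorem ZP.rr (hp : CHF p) (hn : CHF n) (hnb : PBd n) {t : (x : γ) → ZMod (p x)} (ht : ZC E p t)
    (hg : ZP E p n g) (h : ∀ x, E x → (g x).totalDegree + 1 < p x ∧ 2 < p x) :
    ZP (fun y : γ × ℕ => E y.1 ∧ y.2 < n y.1) (fun y => p y.1) (fun y => n y.1)
      (fun y => finExt (rr (t y.1) (g y.1)) y.2) :=
  (ZP.sub (by fun_prop) ZP.one (ZP.mul
    (ZP.C ((ht.comp (u := fun y : γ × ℕ => y.1) (by fun_prop)).mono' fun _ h => h.1))
    (ZP.pderiv (by fun_prop) (by fun_prop) (by fun_prop)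
      ((hg.comp (u := fun y : γ × ℕ => y.1) (by fun_prop)).mono' fun _ h => h.1)
      (i := fun y => y.2) (by fun_prop) fun y hy => ⟨hy.2, h _ hy.1⟩))).congr' fun y hy _ => by
    rw [finExt_of_lt _ hy.2, finExt_of_lt _ hy.2, P337.rr]

theorem ZP.hh (hp : CHF p) (hn : CHF n) (he : CHF e) {t : (x : γ) → ZMod (p x)} (ht : ZC E p t)
    (hg : ZP E p n g) : ZP E p n (fun x => hh (e x) (t x) (g x)) := by
  have h1 : ZP (fun y : γ × ℕ => E y.1 ∧ y.2 < n y.1) (fun y => p y.1) (fun y => n y.1)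
      (fun y => P337.XN (n y.1) (ZMod (p y.1)) y.2) := ZP.XN (by fun_prop) (by fun_prop)
  have h2 : ZC (fun y : γ × ℕ => E y.1 ∧ y.2 < n y.1) (fun y => p y.1)
      (fun y => ((e y.1 : ℕ) : ZMod (p y.1))) := ZC.natCast (by fun_prop)
  have h3 := ZP.add (ZP.sub (by fun_prop) (ZP.pow (by fun_prop) h1 (k := fun y => e y.1 + 1)
    (by fun_prop)) (ZP.mul (ZP.C (h2.add ZC.one)) h1)) (ZP.C h2)
  have h4 : ZP E p n (fun x => NN (Fin (n x)) (ZMod (p x)) (e x)) := by
    refine (ZP.sum_range hn (H := fun x i => P337.XN (n x) (ZMod (p x)) i ^ (e x + 1) -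
      MvPolynomial.C (((e x : ℕ) : ZMod (p x)) + 1) * P337.XN (n x) (ZMod (p x)) i +
        MvPolynomial.C ((e x : ℕ) : ZMod (p x))) (by exact h3)).congr' fun x _ _ => ?_
    rw [Finset.sum_range]
    simp only [XN_val, NN]
  exact (h4.add (ZP.mul (ZP.C (((ZC.natCast he).add ZC.one).mul ht)) hg)).congr'
    fun x _ _ => by rw [P337.hh]

end Vale.Agent.P337
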