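import Vale.Agent.P337.CH.MC
import Vale.Agent.P337.CoeffFp
import Vale.Agent.P337.DetSum
import Vale.Agent.P337.Lam
import Vale.Agent.P337.DDefs
import Mathlib.RingTheory.Polynomial.Basic

/-!
Polynomials over `ZMod p` whose values are computable in the counting hierarchy: coefficients,
partial derivatives and determinants.
-/

namespace Vale.Agent.P337

open Vale.Agent.Lib.PolyTime Finset MvPolynomial

variable {γ γ' : Type*} [Enc γ] [Enc γ']

section ZC

variable {E E' : γ → Prop} {p : γ → ℕ} {F G : (x : γ) → ZMod (p x)}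

theorem ZC.mono' (hF : ZC E p F) (h : ∀ x, E' x → E x) : ZC E' p F :=
  hF.congr fun x hx _ => ⟨h x hx, rfl⟩

theorem ZC.congr' (hF : ZC E p F) (h : ∀ x, E x → (p x).Prime → F x = G x) : ZC E p G :=
  hF.congr fun x hx hp => ⟨hx, h x hx hp⟩

theorem ZC.one : ZC E p (fun _ => 1) :=
  (ZC.natCast (CHF.const 1)).congr' fun _ _ _ => Nat.cast_one

theorem ZC.zero : ZC E p (fun _ => 0) :=
  (ZC.natCast (CHF.const 0)).congr' fun _ _ _ => Nat.cast_zero

theorem ZC.two : ZC E p (fun _ => 2) :=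
  (ZC.natCast (CHF.const 2)).congr' fun _ _ _ => Nat.cast_ofNat

theorem ZC.sub (hp : CHF p) (hF : ZC E p F) (hG : ZC E p G) : ZC E p (fun x => F x - G x) :=
  (hF.add (hG.neg hp)).congr' fun _ _ _ => (sub_eq_add_neg _ _).symm

theorem ZC.ite' {q : γ → Prop} {inst : ∀ x, Decidable (q x)} (hq : CHP q)
    (hF : ZC E p F) (hG : ZC E p G) : ZC E p (fun x => @ite _ (q x) (inst x) (F x) (G x)) :=
  ZC.ite hq (hF.mono' fun _ h => h.1) (hG.mono' fun _ h => h.1)

theorem ZC.negOnePow (hp : CHF p) {k : γ → ℕ} (hk : CHF k) : ZC E p (fun x => (-1) ^ k x) :=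
  (ZC.one.neg hp).pow hp hk

theorem ZC.factorial (hp : CHF p) {k : γ → ℕ} (hk : CHF k) :
    ZC E p (fun x => (((k x).factorial : ℕ) : ZMod (p x))) :=
  (ZC.prod_range hp hk (H := fun x s => ((s + 1 : ℕ) : ZMod (p x)))
    (ZC.natCast (by fun_prop))).congr'
    fun _ _ _ => by rw [← Nat.cast_prod, prod_range_add_one_eq_factorial]

theorem ZC.descFactorial (hp : CHF p) {k l : γ → ℕ} (hk : CHF k) (hl : CHF l) :
    ZC E p (fun x => (((k x).descFactorial (l x) : ℕ) : ZMod (p x))) :=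
  (ZC.prod_range hp hl (H := fun x s => ((k x - s : ℕ) : ZMod (p x)))
    (ZC.natCast (by fun_prop))).congr'
    fun _ _ _ => by rw [← Nat.cast_prod, Nat.descFactorial_eq_prod_range]

theorem ZC.ucoeff (hp : CHF p) {Q : (x : γ) → Polynomial (ZMod (p x))}
    (hQ : ZC (fun y : γ × ℕ => E y.1) (fun y => p y.1)
      (fun y => (Q y.1).eval ((y.2 : ℕ) : ZMod (p y.1)))) {k : γ → ℕ} (hk : CHF k)
    (h : ∀ x, E x → (Q x).natDegree + 1 < p x ∧ k x + 1 < p x) :
    ZC E p (fun x => (Q x).coeff (k x)) := by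
  refine (ZC.sum_range hp (H := fun x s => (-(((s : ℕ) : ZMod (p x)) ^ (p x - 1 - k x))) *
    (Q x).eval ((s : ℕ) : ZMod (p x))) (ZC.mul (ZC.neg (by fun_prop) (ZC.pow (by fun_prop)
      (ZC.natCast (by fun_prop)) (by fun_prop))) (hQ.mono' fun _ h => h.1))).congr'
    fun x hx hpx => ?_
  have := Fact.mk hpx
  obtain ⟨h1, h2⟩ := h x hx
  rw [coeff_eq_sum_uni (weights_zmod (p x) (d := max (Q x).natDegree (k x)) (by omega)) (Q x)
    (le_max_left _ _) (le_max_right _ _), sum_range]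

end ZC

/-- Extension by zero of a function on `Fin n`. -/
def finExt {A : Type*} [Zero A] {n : ℕ} (f : Fin n → A) (i : ℕ) : A :=
  if h : i < n then f ⟨i, h⟩ else 0

theorem finExt_val {A : Type*} [Zero A] {n : ℕ} (f : Fin n → A) (i : Fin n) :
    finExt f i = f i := by simp [finExt]

theorem finExt_of_lt {A : Type*} [Zero A] {n : ℕ} (f : Fin n → A) {i : ℕ} (h : i < n) :
    finExt f i = f ⟨i, h⟩ := dif_pos h

section ZC2

variable {E : γ → Prop} {p n : γ → ℕ}

theorem ZC.prod_fin (hp : CHF p) (hn : CHF n) {f : (x : γ) → Fin (n x) → ZMod (p x)}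
    (hf : ZC (fun y : γ × ℕ => E y.1 ∧ y.2 < n y.1) (fun y => p y.1)
      (fun y => finExt (f y.1) y.2)) : ZC E p (fun x => ∏ i, f x i) :=
  (ZC.prod_range hp hn (H := fun x s => finExt (f x) s) hf).congr' fun x _ _ => by
    rw [prod_range]
    simp only [finExt_val]

theorem ZC.sum_fin (hn : CHF n) {f : (x : γ) → Fin (n x) → ZMod (p x)}
    (hf : ZC (fun y : γ × ℕ => E y.1 ∧ y.2 < n y.1) (fun y => p y.1)
      (fun y => finExt (f y.1) y.2)) : ZC E p (fun x => ∑ i, f x i) :=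
  (ZC.sum_range hn (H := fun x s => finExt (f x) s) hf).congr' fun x _ _ => by
    rw [sum_range]
    simp only [finExt_val]

theorem ZC.det (hp : CHF p) (hn : CHF n) (hnb : PBd n)
    {M : (x : γ) → Matrix (Fin (n x)) (Fin (n x)) (ZMod (p x))}
    (hM : ZC (fun y : (γ × ℕ) × ℕ => E y.1.1 ∧ y.1.2 < n y.1.1 ∧ y.2 < n y.1.1)
      (fun y => p y.1.1) (fun y => finExt (fun i => finExt (M y.1.1 i) y.2) y.1.2)) :
    ZC E p (fun x => (M x).det) := by
  refine (ZC.sum_range (m := fun x => n x ^ n x) (by fun_prop)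
    (H := fun x s => (∏ i ∈ range (n x), ∏ j ∈ range (n x), if i < j then
      (if (digs (n x) (n x) s).getD i 0 < (digs (n x) (n x) s).getD j 0 then 1 else
        if (digs (n x) (n x) s).getD i 0 = (digs (n x) (n x) s).getD j 0 then 0 else -1) else 1) *
      ∏ i ∈ range (n x), finExt (fun k => finExt (M x k) i) ((digs (n x) (n x) s).getD i 0))
    (ZC.mul ?_ ?_)).congr' fun x _ _ => ?_
  · refine ZC.prod_range (by fun_prop) (by fun_prop) (ZC.prod_range (by fun_prop) (by fun_prop) ?_)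
    exact ZC.ite' (by fun_prop) (ZC.ite' (by fun_prop) ZC.one (ZC.ite' (by fun_prop) ZC.zero
      (ZC.one.neg (by fun_prop)))) ZC.one
  · refine ZC.prod_range (by fun_prop) (by fun_prop) ((hM.comp (u := fun z : (γ × ℕ) × ℕ =>
      ((z.1.1, (digs (n z.1.1) (n z.1.1) z.1.2).getD z.2 0), z.2)) (by fun_prop)).mono'
        fun z hz => ⟨hz.1.1, ?_, hz.2⟩)
    dsimp only
    rw [getD_digs _ _ _ hz.2]
    exact Nat.mod_lt _ (by have := hz.2; omega)
  · rw [det_eq_sum]
    have := sum_digs (n x) (n x) (fun f => ((sgnF (n x) f : ℤ) : ZMod (p x)) *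
      ∏ i : Fin (n x), finExt (fun k => M x k i) (f i))
    simp only [finExt_val] at this
    rw [← this]
    refine sum_congr rfl fun s _ => ?_
    rw [prod_range, prod_range]
    simp only [finExt_val, sgnF, prod_range]
    push_cast
    simp only [Fin.lt_def]

end ZC2

/-- The point coded by a list. -/
def pt (q n : ℕ) (l : List ℕ) : Fin n → ZMod q := fun i => ((l.getD i 0 : ℕ) : ZMod q)

/-- The values of the polynomial `P x` at points of `(ZMod (p x)) ^ (n x)` are computable. -/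
def ZP (E : γ → Prop) (p n : γ → ℕ) (P : (x : γ) → MvPolynomial (Fin (n x)) (ZMod (p x))) : Prop :=
  ZC (fun y : γ × List ℕ => E y.1) (fun y => p y.1) (fun y => eval (pt (p y.1) (n y.1) y.2) (P y.1))

section ZP

variable {E E' : γ → Prop} {p n : γ → ℕ} {P Q : (x : γ) → MvPolynomial (Fin (n x)) (ZMod (p x))}

theorem ZP.congr (hP : ZP E p n P) (h : ∀ x, E' x → (p x).Prime → E x ∧ P x = Q x) :
    ZP E' p n Q :=
  ZC.congr hP fun y hy hp => ⟨(h y.1 hy hp).1, by rw [(h y.1 hy hp).2]⟩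

theorem ZP.mono' (hP : ZP E p n P) (h : ∀ x, E' x → E x) : ZP E' p n P :=
  hP.congr fun x hx _ => ⟨h x hx, rfl⟩

theorem ZP.congr' (hP : ZP E p n P) (h : ∀ x, E x → (p x).Prime → P x = Q x) : ZP E p n Q :=
  hP.congr fun x hx hp => ⟨hx, h x hx hp⟩

theorem ZP.comp (hP : ZP E p n P) {u : γ' → γ} (hu : CHF u) :
    ZP (fun y => E (u y)) (fun y => p (u y)) (fun y => n (u y)) (fun y => P (u y)) :=
  ZC.comp hP (u := fun y : γ' × List ℕ => (u y.1, y.2)) (by fun_prop)

theorem ZP.C {F : (x : γ) → ZMod (p x)} (hF : ZC E p F) : ZP E p n (fun x => C (F x)) :=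
  (hF.comp (u := fun y : γ × List ℕ => y.1) (by fun_prop)).congr' fun _ _ _ => by simp

theorem ZP.one : ZP E p n (fun _ => 1) := ZC.one.congr' fun _ _ _ => by simp

theorem ZP.add (hP : ZP E p n P) (hQ : ZP E p n Q) : ZP E p n (fun x => P x + Q x) :=
  (ZC.add hP hQ).congr' fun _ _ _ => by simp

theorem ZP.mul (hP : ZP E p n P) (hQ : ZP E p n Q) : ZP E p n (fun x => P x * Q x) :=
  (ZC.mul hP hQ).congr' fun _ _ _ => by simp

theorem ZP.sub (hp : CHF p) (hP : ZP E p n P) (hQ : ZP E p n Q) :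
    ZP E p n (fun x => P x - Q x) :=
  (ZC.sub (by fun_prop) hP hQ).congr' fun _ _ _ => by simp

theorem ZP.pow (hp : CHF p) (hP : ZP E p n P) {k : γ → ℕ} (hk : CHF k) :
    ZP E p n (fun x => P x ^ k x) :=
  (ZC.pow (by fun_prop) hP (k := fun y : γ × List ℕ => k y.1) (by fun_prop)).congr'
    fun _ _ _ => by simp

theorem ZP.ite {q : γ → Prop} {inst : ∀ x, Decidable (q x)} (hq : CHP q)
    (hP : ZP (fun x => E x ∧ q x) p n P) (hQ : ZP (fun x => E x ∧ ¬ q x) p n Q) :
    ZP E p n (fun x => @ite _ (q x) (inst x) (P x) (Q x)) :=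
  (ZC.ite (q := fun y : γ × List ℕ => q y.1) (inst := fun y => inst y.1) (by fun_prop)
    hP hQ).congr' fun _ _ _ => by
      dsimp only
      split_ifs <;> rfl

theorem ZP.sum_range {m : γ → ℕ} (hm : CHF m)
    {H : (x : γ) → ℕ → MvPolynomial (Fin (n x)) (ZMod (p x))}
    (hH : ZP (fun y : γ × ℕ => E y.1 ∧ y.2 < m y.1) (fun y => p y.1) (fun y => n y.1)
      (fun y => H y.1 y.2)) : ZP E p n (fun x => ∑ s ∈ range (m x), H x s) :=
  (ZC.sum_range (m := fun y : γ × List ℕ => m y.1) (by fun_prop)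
    (H := fun y s => eval (pt (p y.1) (n y.1) y.2) (H y.1 s))
    (ZC.comp hH (u := fun z : (γ × List ℕ) × ℕ => ((z.1.1, z.2), z.1.2)) (by fun_prop))).congr'
    fun _ _ _ => by simp

theorem ZP.prod_range (hp : CHF p) {m : γ → ℕ} (hm : CHF m)
    {H : (x : γ) → ℕ → MvPolynomial (Fin (n x)) (ZMod (p x))}
    (hH : ZP (fun y : γ × ℕ => E y.1 ∧ y.2 < m y.1) (fun y => p y.1) (fun y => n y.1)
      (fun y => H y.1 y.2)) : ZP E p n (fun x => ∏ s ∈ range (m x), H x s) :=
  (ZC.prod_range (by fun_prop) (m := fun y : γ × List ℕ => m y.1) (by fun_prop)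
    (H := fun y s => eval (pt (p y.1) (n y.1) y.2) (H y.1 s))
    (ZC.comp hH (u := fun z : (γ × List ℕ) × ℕ => ((z.1.1, z.2), z.1.2)) (by fun_prop))).congr'
    fun _ _ _ => by simp

theorem ZP.XN (hn : CHF n) {i : γ → ℕ} (hi : CHF i) :
    ZP E p n (fun x => XN (n x) (ZMod (p x)) (i x)) :=
  (ZC.natCast (f := fun y : γ × List ℕ => if i y.1 < n y.1 then y.2.getD (i y.1) 0 else 0)
    (by fun_prop)).congr' fun y _ _ => by
      dsimp only [P337.XN]
      split_ifs <;> simp [pt]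

theorem ZC.mvcoeff (hp : CHF p) (hn : CHF n) (hnb : PBd n) (hP : ZP E p n P) {k : γ → ℕ}
    (hk : CHF k) (h : ∀ x, E x → (P x).totalDegree + 1 < p x ∧ k x + 1 < p x) :
    ZC E p (fun x => coeff (cst _ (k x)) (P x)) := by
  refine (ZC.sum_range (m := fun x => p x ^ n x) (by fun_prop)
    (H := fun x s => (∏ i ∈ range (n x),
      -((((digs (p x) (n x) s).getD i 0 : ℕ) : ZMod (p x)) ^ (p x - 1 - k x))) *
      eval (pt (p x) (n x) (digs (p x) (n x) s)) (P x))
    (ZC.mul (ZC.prod_range (by fun_prop) (by fun_prop) (ZC.neg (by fun_prop) (ZC.pow (by fun_prop)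
      (ZC.natCast (by fun_prop)) (by fun_prop))))
      ((ZC.comp hP (u := fun y : γ × ℕ => (y.1, digs (p y.1) (n y.1) y.2)) (by fun_prop)).mono'
        fun _ h => h.1))).congr' fun x hx hpx => ?_
  have := Fact.mk hpx
  obtain ⟨h1, h2⟩ := h x hx
  rw [coeff_eq_sum_multi (weights_zmod (p x) (d := max (P x).totalDegree (k x)) (by omega)) (P x)
    (le_max_left _ _) (b := cst _ (k x)) (fun i => by simp)]
  have h3 := sum_digs (p x) (n x) (fun f => (∏ i, -(((f i : ℕ) : ZMod (p x)) ^ (p x - 1 - k x))) *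
    eval (fun i => ((f i : ℕ) : ZMod (p x))) (P x))
  simp only [cst_apply]
  rw [← h3]
  refine sum_congr rfl fun s _ => ?_
  rw [prod_range]
  rfl

end ZP

theorem derivative_line {R σ : Type*} [CommRing R] [DecidableEq σ] (x : σ → R) (i : σ)
    (g : MvPolynomial σ R) :
    (Polynomial.derivative (aeval (fun j => Polynomial.C (x j) + if j = i then Polynomial.X else 0)
      g)).eval 0 = eval x (pderiv i g) ∧
    ∀ s, (aeval (fun j => Polynomial.C (x j) + if j = i then Polynomial.X else 0) g).eval s =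
      eval (fun j => x j + if j = i then s else 0) g := by
  induction g using MvPolynomial.induction_on with
  | C a => simp
  | add p q hp hq => simp [hp.1, hq.1, hp.2, hq.2]
  | mul_X p j hp =>
    constructor
    · rw [map_mul, aeval_X, Polynomial.derivative_mul, Polynomial.eval_add, Polynomial.eval_mul,
        Polynomial.eval_mul, hp.1, hp.2, pderiv_mul]
      by_cases h : j = i
      · subst h
        simp
      · simp [h, pderiv_X_of_ne h]
    · intro s
      rw [map_mul, aeval_X, Polynomial.eval_mul, hp.2]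
      by_cases h : j = i <;> simp [h]

theorem ZP.pderiv {E : γ → Prop} {p n : γ → ℕ}
    {P : (x : γ) → MvPolynomial (Fin (n x)) (ZMod (p x))} (hp : CHF p) (hn : CHF n) (hnb : PBd n)
    (hP : ZP E p n P) {i : γ → ℕ} (hi : CHF i)
    (h : ∀ x, E x → i x < n x ∧ (P x).totalDegree + 1 < p x ∧ 2 < p x) :
    ZP E p n (fun x => finExt (fun j => pderiv j (P x)) (i x)) := by
  refine (ZC.ucoeff (E := fun y : γ × List ℕ => E y.1) (p := fun y => p y.1) (by fun_prop)
    (Q := fun y => aeval (fun j : Fin (n y.1) => Polynomial.C (pt (p y.1) (n y.1) y.2 j) +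
      if (j : ℕ) = i y.1 then Polynomial.X else 0) (P y.1))
    ((ZC.comp hP (u := fun z : (γ × List ℕ) × ℕ => (z.1.1, (List.range (n z.1.1)).map
      fun j => z.1.2.getD j 0 + if j = i z.1.1 then z.2 else 0)) (by fun_prop)).congr'
        fun z hz _ => ?_) (CHF.const 1) fun y hy => ⟨?_, (h _ hy).2.2⟩).congr' fun y hy _ => ?_
  · have h1 := (derivative_line (pt (p z.1.1) (n z.1.1) z.1.2) ⟨i z.1.1, (h _ hz).1⟩
      (P z.1.1)).2 ((z.2 : ℕ) : ZMod (p z.1.1))
    simp only [Fin.ext_iff] at h1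
    rw [h1]
    congr 2
    funext j
    simp [pt, List.getD_eq_getElem?_getD]
  · refine lt_of_le_of_lt (Nat.succ_le_succ ((aeval_natDegree_le _ le_rfl _ (n := 1)
      fun j => ?_).trans (by rw [mul_one]))) (h _ hy).2.1
    refine (Polynomial.natDegree_add_le _ _).trans (max_le (by simp) ?_)
    split_ifs
    · exact Polynomial.natDegree_X_le
    · simp
  · have h1 := (derivative_line (pt (p y.1) (n y.1) y.2) ⟨i y.1, (h _ hy).1⟩ (P y.1)).1
    simp only [Fin.ext_iff] at h1
    dsimp only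
    rw [finExt_of_lt _ (h _ hy).1, ← h1, ← Polynomial.coeff_zero_eq_eval_zero,
      Polynomial.coeff_derivative]
    simp

end Vale.Agent.P337
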